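import Vale.Agent.Lib.P161.Defs

namespace Vale.Agent.Lib.P161

open MeasureTheory

variable {V : Type}

/-- The basic event of the broadcast description. -/
def basicEvent (o : V) (b : Bool) (F A : Finset (Sym2 V)) : Set (V → Bool) :=
  {σ | σ o = b ∧ ∀ e ∈ F, ((∀ x ∈ e, ∀ y ∈ e, σ x = σ y) ↔ e ∈ A)}

lemma agree_mk (σ : V → Bool) (u v : V) :
    (∀ x ∈ s(u, v), ∀ y ∈ s(u, v), σ x = σ y) ↔ σ u = σ v := by
  constructor
  · intro h
    exact h u (Sym2.mem_mk_left u v) v (Sym2.mem_mk_right u v)
  · intro h x hx y hy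
    rcases Sym2.mem_iff.mp hx with rfl | rfl <;> rcases Sym2.mem_iff.mp hy with rfl | rfl <;>
      simp [h]

lemma measurableSet_agree (e : Sym2 V) :
    MeasurableSet {σ : V → Bool | ∀ x ∈ e, ∀ y ∈ e, σ x = σ y} := by
  induction e using Sym2.ind with
  | _ u v =>
    simp only [agree_mk]
    exact measurableSet_eq_fun (measurable_pi_apply u) (measurable_pi_apply v)

lemma measurableSet_basicEvent (o : V) (b : Bool) (F A : Finset (Sym2 V)) :
    MeasurableSet (basicEvent o b F A) := by
  have h : basicEvent o b F A = {σ | σ o = b} ∩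
      ⋂ e ∈ F, {σ : V → Bool | (∀ x ∈ e, ∀ y ∈ e, σ x = σ y) ↔ e ∈ A} := by
    ext σ
    simp [basicEvent]
  rw [h]
  refine MeasurableSet.inter ?_ ?_
  · exact measurableSet_eq_fun (measurable_pi_apply o) measurable_const
  · refine Finset.measurableSet_biInter F fun e _ => ?_
    by_cases he : e ∈ A
    · have : {σ : V → Bool | (∀ x ∈ e, ∀ y ∈ e, σ x = σ y) ↔ e ∈ A} =
          {σ : V → Bool | ∀ x ∈ e, ∀ y ∈ e, σ x = σ y} := by
        ext σ; simp [he]
      rw [this]; exact measurableSet_agree e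
    · have : {σ : V → Bool | (∀ x ∈ e, ∀ y ∈ e, σ x = σ y) ↔ e ∈ A} =
          {σ : V → Bool | ∀ x ∈ e, ∀ y ∈ e, σ x = σ y}ᶜ := by
        ext σ; simp [he]
      rw [this]; exact (measurableSet_agree e).compl

lemma IsFreeIsing.apply {G : SimpleGraph V} {θ : ℝ} {ν : Measure (V → Bool)}
    (h : IsFreeIsing G θ ν) (o : V) (b : Bool) (F A : Finset (Sym2 V))
    (hF : (F : Set (Sym2 V)) ⊆ G.edgeSet) (hA : A ⊆ F) :
    ν (basicEvent o b F A) =
      ENNReal.ofReal (1 / 2 * ((1 + θ) / 2) ^ A.card * ((1 - θ) / 2) ^ (F.card - A.card)) :=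
  h o b F A hF hA

lemma isFreeIsing_iff {G : SimpleGraph V} {θ : ℝ} {ν : Measure (V → Bool)} :
    IsFreeIsing G θ ν ↔ ∀ (o : V) (b : Bool) (F A : Finset (Sym2 V)),
      (F : Set (Sym2 V)) ⊆ G.edgeSet → A ⊆ F → ν (basicEvent o b F A) =
      ENNReal.ofReal (1 / 2 * ((1 + θ) / 2) ^ A.card * ((1 - θ) / 2) ^ (F.card - A.card)) :=
  Iff.rfl

lemma IsFreeIsing.measure_univ {G : SimpleGraph V} {θ : ℝ} {ν : Measure (V → Bool)}
    (h : IsFreeIsing G θ ν) (o : V) : ν Set.univ = 1 := by
  have h1 := h.apply o true ∅ ∅ (by simp) (by simp)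
  have h2 := h.apply o false ∅ ∅ (by simp) (by simp)
  have hu : (Set.univ : Set (V → Bool)) = basicEvent o true ∅ ∅ ∪ basicEvent o false ∅ ∅ := by
    ext σ
    cases hσ : σ o <;> simp [basicEvent, hσ]
  have hd : Disjoint (basicEvent o true ∅ ∅) (basicEvent o false ∅ ∅) := by
    rw [Set.disjoint_left]
    intro σ h1 h2
    have a1 := h1.1
    have a2 := h2.1
    rw [a1] at a2
    exact absurd a2 (by decide)
  rw [hu, measure_union hd (measurableSet_basicEvent _ _ _ _), h1, h2]
  simp only [Finset.card_empty, pow_zero, mul_one, Nat.sub_self]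
  rw [← ENNReal.ofReal_add (by norm_num) (by norm_num)]
  norm_num

/-- The pi-system of basic events seen from a fixed vertex. -/
def basicSystem (G : SimpleGraph V) (o : V) : Set (Set (V → Bool)) :=
  {S | ∃ (b : Bool) (F A : Finset (Sym2 V)),
    (F : Set (Sym2 V)) ⊆ G.edgeSet ∧ A ⊆ F ∧ S = basicEvent o b F A}

lemma isPiSystem_basicSystem (G : SimpleGraph V) (o : V) : IsPiSystem (basicSystem G o) := by
  classical
  rintro S ⟨b, F, A, hF, hA, rfl⟩ T ⟨b', F', A', hF', hA', rfl⟩ ⟨σ0, h1, h2⟩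
  have hb : b = b' := h1.1.symm.trans h2.1
  subst hb
  refine ⟨b, F ∪ F', A ∪ A', ?_, Finset.union_subset_union hA hA', ?_⟩
  · rw [Finset.coe_union]
    exact Set.union_subset hF hF'
  · have c1 : ∀ e ∈ F, e ∈ A' → e ∈ A := fun e he h =>
      (h1.2 e he).mp ((h2.2 e (hA' h)).mpr h)
    have c2 : ∀ e ∈ F', e ∈ A → e ∈ A' := fun e he h =>
      (h2.2 e he).mp ((h1.2 e (hA h)).mpr h)
    ext σ
    simp only [basicEvent, Set.mem_inter_iff, Set.mem_ofPred_eq, Finset.mem_union]
    constructor
    · rintro ⟨⟨hb, hσ⟩, ⟨_, hσ'⟩⟩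
      refine ⟨hb, ?_⟩
      rintro e (he | he)
      · rw [hσ e he]
        exact ⟨Or.inl, fun h => h.elim id (c1 e he)⟩
      · rw [hσ' e he]
        exact ⟨Or.inr, fun h => h.elim (c2 e he) id⟩
    · rintro ⟨hb, hσ⟩
      refine ⟨⟨hb, fun e he => ?_⟩, ⟨hb, fun e he => ?_⟩⟩
      · rw [hσ e (Or.inl he)]
        exact ⟨fun h => h.elim id (c1 e he), Or.inl⟩
      · rw [hσ e (Or.inr he)]
        exact ⟨fun h => h.elim (c2 e he) id, Or.inr⟩

lemma generateFrom_basicSystem (G : SimpleGraph V) (hG : G.Connected) (o : V) :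
    MeasurableSpace.generateFrom (basicSystem G o) = MeasurableSpace.pi := by
  apply le_antisymm
  · apply MeasurableSpace.generateFrom_le
    rintro S ⟨b, F, A, -, -, rfl⟩
    exact measurableSet_basicEvent o b F A
  · have key : ∀ v, MeasurableSet[MeasurableSpace.generateFrom (basicSystem G o)]
        {σ : V → Bool | σ v = true} := by
      intro v
      have hr : Relation.ReflTransGen G.Adj o v :=
        (SimpleGraph.reachable_iff_reflTransGen o v).mp (hG.preconnected o v)
      induction hr with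
      | refl =>
        apply MeasurableSpace.measurableSet_generateFrom
        refine ⟨true, ∅, ∅, by simp, by simp, ?_⟩
        ext σ
        simp [basicEvent]
      | @tail u w _ hadj ih =>
        have hag : MeasurableSet[MeasurableSpace.generateFrom (basicSystem G o)]
            {σ : V → Bool | σ u = σ w} := by
          have e1 : {σ : V → Bool | σ u = σ w} =
              basicEvent o true {s(u, w)} {s(u, w)} ∪ basicEvent o false {s(u, w)} {s(u, w)} := by
            ext σ
            cases hσ : σ o <;> simp [basicEvent, hσ] <;> exact fun h => h.symm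
          rw [e1]
          refine MeasurableSet.union ?_ ?_
          · apply MeasurableSpace.measurableSet_generateFrom
            exact ⟨true, {s(u, w)}, {s(u, w)}, by simpa using hadj, subset_rfl, rfl⟩
          · apply MeasurableSpace.measurableSet_generateFrom
            exact ⟨false, {s(u, w)}, {s(u, w)}, by simpa using hadj, subset_rfl, rfl⟩
        have e2 : {σ : V → Bool | σ w = true} =
            ({σ : V → Bool | σ u = true} ∩ {σ : V → Bool | σ u = σ w}) ∪
            ({σ : V → Bool | σ u = true}ᶜ ∩ {σ : V → Bool | σ u = σ w}ᶜ) := by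
          ext σ
          cases h1 : σ u <;> cases h2 : σ w <;> simp [h1, h2]
        rw [e2]
        exact (ih.inter hag).union (ih.compl.inter hag.compl)
    rw [MeasurableSpace.pi]
    refine iSup_le fun v => ?_
    rw [← measurable_iff_comap_le]
    exact @measurable_to_bool _ (MeasurableSpace.generateFrom (basicSystem G o)) _ (key v)

lemma IsFreeIsing.eq {G : SimpleGraph V} (hG : G.Connected) {θ : ℝ} {ν ν' : Measure (V → Bool)}
    (h : IsFreeIsing G θ ν) (h' : IsFreeIsing G θ ν') : ν = ν' := by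
  obtain ⟨o⟩ := hG.nonempty
  have : IsFiniteMeasure ν := ⟨by rw [h.measure_univ o]; exact ENNReal.one_lt_top⟩
  refine ext_of_generate_finite (basicSystem G o) (generateFrom_basicSystem G hG o).symm
    (isPiSystem_basicSystem G o) ?_ ?_
  · rintro S ⟨b, F, A, hF, hA, rfl⟩
    rw [h.apply o b F A hF hA, h'.apply o b F A hF hA]
  · rw [h.measure_univ o, h'.measure_univ o]

end Vale.Agent.Lib.P161
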