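import Mathlib

namespace Vale.Agent.Lib.P161

open MeasureTheory

/-- The law of a family of i.i.d. labels, uniform on the unit interval, indexed by `V`. -/
noncomputable def iidUniform (V : Type) : Measure (V → unitInterval) :=
  Measure.infinitePi fun _ : V => (volume : Measure unitInterval)

/-- `IsFIID G ν`: the measure `ν` on spin configurations is a factor of IID on the graph `G`:
it is the law of `Φ U` where `U` is i.i.d. uniform on the unit interval, `Φ` is measurable, and
for each fixed automorphism `γ` of `G`, almost surely `Φ (γ U) = γ (Φ U)`,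
with `(γ x) v = x (γ⁻¹ v)`. -/
def IsFIID {V : Type} (G : SimpleGraph V) (ν : Measure (V → Bool)) : Prop :=
  ∃ Φ : (V → unitInterval) → (V → Bool), Measurable Φ ∧
    (∀ γ : SimpleGraph.Iso G G, ∀ᵐ U ∂(iidUniform V),
      Φ (fun v => U (γ.symm v)) = fun v => Φ U (γ.symm v)) ∧
    Measure.map Φ (iidUniform V) = ν

/-- `IsFreeIsing G θ ν`: the measure `ν` on spin configurations (spins encoded as Booleans)
is the free zero-field Ising measure with `θ = tanh β` on the tree `G`, in its broadcast
description: seen from any vertex `o`, the spin at `o` is uniform and, independently of it and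
of each other, the two endpoints of each edge agree with probability `(1 + θ) / 2`.
Formally: for every vertex `o`, every `b`, every finite set `F` of edges and every `A ⊆ F`,
the event that the spin at `o` is `b` and that the edges of `F` whose endpoints agree are
exactly those of `A` has probability `1/2 * ((1+θ)/2)^|A| * ((1-θ)/2)^(|F|-|A|)`. -/
def IsFreeIsing {V : Type} (G : SimpleGraph V) (θ : ℝ) (ν : Measure (V → Bool)) : Prop :=
  ∀ (o : V) (b : Bool) (F A : Finset (Sym2 V)), (F : Set (Sym2 V)) ⊆ G.edgeSet → A ⊆ F →
    ν {σ | σ o = b ∧ ∀ e ∈ F, ((∀ x ∈ e, ∀ y ∈ e, σ x = σ y) ↔ e ∈ A)} =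
      ENNReal.ofReal (1 / 2 * ((1 + θ) / 2) ^ A.card * ((1 - θ) / 2) ^ (F.card - A.card))

end Vale.Agent.Lib.P161
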