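import Vale.Agent.Lib.P161.Split

namespace Vale.Agent.Lib.P161

open MeasureTheory

variable {V : Type}

/-- Pointwise product of two spin configurations (exclusive or of the Boolean encodings). -/
def mulSpin (p : (V → Bool) × (V → Bool)) : V → Bool := fun v => xor (p.1 v) (p.2 v)

lemma measurable_mulSpin : Measurable (mulSpin (V := V)) := by
  refine measurable_pi_lambda _ fun v => ?_
  have h : Measurable (fun q : Bool × Bool => xor q.1 q.2) := measurable_of_countable _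
  have h2 : Measurable (fun p : (V → Bool) × (V → Bool) => (p.1 v, p.2 v)) := by fun_prop
  exact h.comp h2

lemma agree_mulSpin (σ τ : V → Bool) (e : Sym2 V) :
    (∀ x ∈ e, ∀ y ∈ e, mulSpin (σ, τ) x = mulSpin (σ, τ) y) ↔
      ((∀ x ∈ e, ∀ y ∈ e, σ x = σ y) ↔ (∀ x ∈ e, ∀ y ∈ e, τ x = τ y)) := by
  induction e using Sym2.ind with
  | _ u v =>
    simp only [agree_mk, mulSpin]
    cases σ u <;> cases σ v <;> cases τ u <;> cases τ v <;> simp

open scoped Classical in
lemma prod_ite_eq_pow (F t : Finset (Sym2 V)) (ht : t ⊆ F) (a c : ℝ) :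
    ∏ e ∈ F, (if e ∈ t then a else c) = a ^ t.card * c ^ (F.card - t.card) := by
  rw [Finset.prod_ite, Finset.prod_const, Finset.prod_const]
  have e1 : F.filter (fun e => e ∈ t) = t := by
    ext e
    simp only [Finset.mem_filter]
    exact ⟨fun h => h.2, fun h => ⟨ht h, h⟩⟩
  have e2 : (F.filter (fun e => e ∉ t)).card = F.card - t.card := by
    rw [← Finset.card_sdiff_of_subset ht]
    congr 1
    ext e
    simp [Finset.mem_sdiff]
  rw [e2, e1]

open scoped Classical in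
lemma sum_weights (F A : Finset (Sym2 V)) (hA : A ⊆ F) (a1 c1 a2 c2 : ℝ) :
    ∑ t ∈ F.powerset, (a1 ^ t.card * c1 ^ (F.card - t.card)) *
        (a2 ^ (F.filter (fun e => (e ∈ t ↔ e ∈ A))).card *
          c2 ^ (F.card - (F.filter (fun e => (e ∈ t ↔ e ∈ A))).card)) =
      (a1 * a2 + c1 * c2) ^ A.card * (a1 * c2 + c1 * a2) ^ (F.card - A.card) := by
  rw [← prod_ite_eq_pow F A hA]
  have key : ∀ e ∈ F, (if e ∈ A then a1 * a2 + c1 * c2 else a1 * c2 + c1 * a2) =
      a1 * (if e ∈ A then a2 else c2) + c1 * (if e ∈ A then c2 else a2) := by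
    intro e _
    split_ifs <;> ring
  rw [Finset.prod_congr rfl key, Finset.prod_add]
  refine Finset.sum_congr rfl fun t ht => ?_
  have htF : t ⊆ F := Finset.mem_powerset.mp ht
  rw [← prod_ite_eq_pow F t htF, ← prod_ite_eq_pow F _ (Finset.filter_subset _ _),
    ← Finset.prod_mul_distrib, ← Finset.prod_sdiff htF, mul_comm]
  congr 1
  · refine Finset.prod_congr rfl fun e he => ?_
    have heF := htF he
    simp [he, heF]
  · refine Finset.prod_congr rfl fun e he => ?_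
    obtain ⟨heF, het⟩ := Finset.mem_sdiff.mp he
    by_cases heA : e ∈ A <;> simp [het, heF, heA]

open scoped Classical in
lemma preimage_basicEvent (o : V) (b : Bool) (F A : Finset (Sym2 V)) :
    mulSpin ⁻¹' (basicEvent o b F A) =
      ⋃ p ∈ (Finset.univ : Finset Bool) ×ˢ F.powerset,
        basicEvent o p.1 F p.2 ×ˢ
          basicEvent o (xor b p.1) F (F.filter (fun e => (e ∈ p.2 ↔ e ∈ A))) := by
  ext ⟨σ, τ⟩
  simp only [Set.mem_preimage, Set.mem_iUnion, Set.mem_prod, Finset.mem_product, Finset.mem_univ,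
    true_and, Finset.mem_powerset, exists_prop]
  constructor
  · rintro ⟨hb, hF⟩
    refine ⟨(σ o, F.filter (fun e => ∀ x ∈ e, ∀ y ∈ e, σ x = σ y)), Finset.filter_subset _ _,
      ⟨rfl, ?_⟩, ⟨?_, ?_⟩⟩
    · intro e he
      simp [he]
    · rw [← hb]
      simp only [mulSpin]
      cases σ o <;> cases τ o <;> rfl
    · intro e he
      have h := hF e he
      rw [agree_mulSpin] at h
      simp only [Finset.mem_filter, he, true_and]
      tauto
  · rintro ⟨⟨b1, t⟩, htF, ⟨hσo, hσ⟩, ⟨hτo, hτ⟩⟩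
    refine ⟨?_, fun e he => ?_⟩
    · simp only [mulSpin]
      rw [hσo, hτo]
      cases b <;> cases b1 <;> rfl
    · have h1 := hσ e he
      have h2 := hτ e he
      simp only [Finset.mem_filter, he, true_and] at h2
      rw [agree_mulSpin]
      tauto

open scoped Classical in
lemma isFreeIsing_map_mulSpin {G : SimpleGraph V} {θ₁ θ₂ : ℝ} (h₁ : 0 ≤ θ₁ ∧ θ₁ ≤ 1)
    (h₂ : 0 ≤ θ₂ ∧ θ₂ ≤ 1) {ν₁ ν₂ : Measure (V → Bool)} (I₁ : IsFreeIsing G θ₁ ν₁)
    (I₂ : IsFreeIsing G θ₂ ν₂) :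
    IsFreeIsing G (θ₁ * θ₂) (Measure.map mulSpin (ν₁.prod ν₂)) := by
  rw [isFreeIsing_iff]
  intro o b F A hF hA
  have : IsFiniteMeasure ν₁ := ⟨by rw [I₁.measure_univ o]; exact ENNReal.one_lt_top⟩
  have : IsFiniteMeasure ν₂ := ⟨by rw [I₂.measure_univ o]; exact ENNReal.one_lt_top⟩
  have ha1 : 0 ≤ (1 + θ₁) / 2 := by linarith [h₁.1]
  have hc1 : 0 ≤ (1 - θ₁) / 2 := by linarith [h₁.2]
  have ha2 : 0 ≤ (1 + θ₂) / 2 := by linarith [h₂.1]
  have hc2 : 0 ≤ (1 - θ₂) / 2 := by linarith [h₂.2]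
  rw [Measure.map_apply measurable_mulSpin (measurableSet_basicEvent o b F A),
    preimage_basicEvent, measure_biUnion_finset]
  rotate_left
  · intro p hp p' hp' hne
    rw [Function.onFun, Set.disjoint_left]
    rintro ⟨σ, τ⟩ ⟨h1, _⟩ ⟨h1', _⟩
    apply hne
    have hpF := Finset.mem_powerset.mp (Finset.mem_product.mp hp).2
    have hpF' := Finset.mem_powerset.mp (Finset.mem_product.mp hp').2
    refine Prod.ext (h1.1.symm.trans h1'.1) ?_
    ext e
    by_cases he : e ∈ F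
    · exact (h1.2 e he).symm.trans (h1'.2 e he)
    · exact ⟨fun h => absurd (hpF h) he, fun h => absurd (hpF' h) he⟩
  · intro p _
    exact (measurableSet_basicEvent _ _ _ _).prod (measurableSet_basicEvent _ _ _ _)
  have hterm : ∀ p ∈ (Finset.univ : Finset Bool) ×ˢ F.powerset,
      (ν₁.prod ν₂) (basicEvent o p.1 F p.2 ×ˢ
          basicEvent o (xor b p.1) F (F.filter (fun e => (e ∈ p.2 ↔ e ∈ A)))) =
      ENNReal.ofReal ((1 / 2 * ((1 + θ₁) / 2) ^ p.2.card * ((1 - θ₁) / 2) ^ (F.card - p.2.card)) *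
        (1 / 2 * ((1 + θ₂) / 2) ^ (F.filter (fun e => (e ∈ p.2 ↔ e ∈ A))).card *
          ((1 - θ₂) / 2) ^ (F.card - (F.filter (fun e => (e ∈ p.2 ↔ e ∈ A))).card))) := by
    intro p hp
    have htF := Finset.mem_powerset.mp (Finset.mem_product.mp hp).2
    rw [Measure.prod_prod, I₁.apply o _ F _ hF htF,
      I₂.apply o _ F _ hF (Finset.filter_subset _ _), ← ENNReal.ofReal_mul (by positivity)]
  rw [Finset.sum_congr rfl hterm, ← ENNReal.ofReal_sum_of_nonneg (fun p _ => by positivity)]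
  congr 1
  rw [Finset.sum_product]
  simp only [Finset.sum_const, Finset.card_univ, Fintype.card_bool]
  have e3 : ∀ t ∈ F.powerset,
      (1 / 2 * ((1 + θ₁) / 2) ^ t.card * ((1 - θ₁) / 2) ^ (F.card - t.card)) *
        (1 / 2 * ((1 + θ₂) / 2) ^ (F.filter (fun e => (e ∈ t ↔ e ∈ A))).card *
          ((1 - θ₂) / 2) ^ (F.card - (F.filter (fun e => (e ∈ t ↔ e ∈ A))).card)) =
      1 / 4 * ((((1 + θ₁) / 2) ^ t.card * ((1 - θ₁) / 2) ^ (F.card - t.card)) *
        (((1 + θ₂) / 2) ^ (F.filter (fun e => (e ∈ t ↔ e ∈ A))).card *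
          ((1 - θ₂) / 2) ^ (F.card - (F.filter (fun e => (e ∈ t ↔ e ∈ A))).card))) := by
    intro t _
    ring
  rw [Finset.sum_congr rfl e3, ← Finset.mul_sum, sum_weights F A hA]
  have ea : (1 + θ₁) / 2 * ((1 + θ₂) / 2) + (1 - θ₁) / 2 * ((1 - θ₂) / 2) = (1 + θ₁ * θ₂) / 2 := by
    ring
  have ec : (1 + θ₁) / 2 * ((1 - θ₂) / 2) + (1 - θ₁) / 2 * ((1 + θ₂) / 2) = (1 - θ₁ * θ₂) / 2 := by
    ring
  rw [ea, ec, nsmul_eq_mul]
  push_cast
  ring

end Vale.Agent.Lib.P161
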