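import Mathlib

namespace Vale.Agent.Lib.P161

/-- The rooted product of a graph `G` with a rooted graph `(R, r)`: a copy of `R` is glued by its
root `r` at every vertex of `G`. Vertices are pairs `(v, w)`; `(v, r)` and `(v', r)` are adjacent
when `v` and `v'` are adjacent in `G`, and `(v, w)` and `(v, w')` are adjacent when `w` and `w'`
are adjacent in `R`. -/
def rootedProduct {V W : Type} (G : SimpleGraph V) (R : SimpleGraph W) (r : W) :
    SimpleGraph (V × W) where
  Adj p q := (p.2 = r ∧ q.2 = r ∧ G.Adj p.1 q.1) ∨ (p.1 = q.1 ∧ R.Adj p.2 q.2)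
  symm := ⟨by
    rintro p q (⟨h1, h2, h3⟩ | ⟨h1, h2⟩)
    · exact Or.inl ⟨h2, h1, h3.symm⟩
    · exact Or.inr ⟨h1.symm, h2.symm⟩⟩
  loopless := ⟨by
    rintro p (⟨_, _, h3⟩ | ⟨_, h2⟩)
    · exact G.loopless.irrefl _ h3
    · exact R.loopless.irrefl _ h2⟩

end Vale.Agent.Lib.P161
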