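import Vale.Agent.Lib.P161.Semigroup
import Vale.Agent.Lib.P161.RootedProduct

namespace Vale.Agent.Lib.P161

open MeasureTheory

variable {V W : Type}

/-- Lift an automorphism of `G` to the rooted product, acting trivially on the glued copies. -/
def liftAut (G : SimpleGraph V) (R : SimpleGraph W) (r : W) (g : G ≃g G) :
    rootedProduct G R r ≃g rootedProduct G R r where
  toEquiv := Equiv.prodCongr g.toEquiv (Equiv.refl W)
  map_rel_iff' := by
    rintro ⟨v, w⟩ ⟨v', w'⟩
    simp only [rootedProduct, Equiv.prodCongr_apply, Prod.map_apply, Equiv.refl_apply,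
      RelIso.coe_fn_toEquiv, EmbeddingLike.apply_eq_iff_eq]
    rw [g.map_rel_iff]

lemma liftAut_symm_apply (G : SimpleGraph V) (R : SimpleGraph W) (r : W) (g : G ≃g G) (v : V)
    (w : W) : (liftAut G R r g).symm (v, w) = (g.symm v, w) := rfl

/-- Extend labels on `V` to labels on `V × W`. -/
def extendLabels (c : unitInterval → W → unitInterval) (U : V → unitInterval) :
    V × W → unitInterval := fun p => c (U p.1) p.2

lemma measurable_extendLabels {c : unitInterval → W → unitInterval} (hc : Measurable c) :
    Measurable (extendLabels (V := V) c) := by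
  refine measurable_pi_lambda _ fun p => ?_
  exact (measurable_pi_apply p.2).comp (hc.comp (measurable_pi_apply p.1))

lemma map_extendLabels {c : unitInterval → W → unitInterval} (hc : Measurable c)
    (hmap : Measure.map c volume = iidUniform W) :
    Measure.map (extendLabels c) (iidUniform V) = iidUniform (V × W) := by
  have e : extendLabels (V := V) c =
      (MeasurableEquiv.curry V W unitInterval).symm ∘ (fun U v => c (U v)) := by
    funext U p
    rfl
  have hm : Measurable (fun (U : V → unitInterval) v => c (U v)) :=
    measurable_pi_lambda _ fun v => hc.comp (measurable_pi_apply v)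
  rw [e, ← Measure.map_map (MeasurableEquiv.measurable _) hm]
  unfold iidUniform at hmap ⊢
  rw [Measure.infinitePi_map_pi _ (fun _ => hc), hmap]
  exact Measure.infinitePi_map_curry_symm (fun (_ : V) (_ : W) => (volume : Measure unitInterval))

/-- Restrict a configuration on the rooted product to the root copy of `G`. -/
def restrictRoot (r : W) (σ : V × W → Bool) : V → Bool := fun v => σ (v, r)

lemma measurable_restrictRoot (r : W) : Measurable (restrictRoot (V := V) r) :=
  measurable_pi_lambda _ fun v => measurable_pi_apply (v, r)

lemma rootMap_injective (r : W) : Function.Injective (Sym2.map fun v : V => (v, r)) :=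
  Sym2.map.injective fun _ _ h => (Prod.mk.inj h).1

lemma agree_rootMap (r : W) (σ : V × W → Bool) (e : Sym2 V) :
    (∀ x ∈ Sym2.map (fun v : V => (v, r)) e, ∀ y ∈ Sym2.map (fun v : V => (v, r)) e, σ x = σ y) ↔
      (∀ x ∈ e, ∀ y ∈ e, restrictRoot r σ x = restrictRoot r σ y) := by
  induction e using Sym2.ind with
  | _ u v =>
    rw [Sym2.map_mk, agree_mk, agree_mk]
    rfl

open scoped Classical in
lemma preimage_restrictRoot_basicEvent (r : W) (o : V) (b : Bool) (F A : Finset (Sym2 V)) :
    restrictRoot r ⁻¹' basicEvent o b F A =
      basicEvent (o, r) b (F.image (Sym2.map fun v : V => (v, r)))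
        (A.image (Sym2.map fun v : V => (v, r))) := by
  ext σ
  simp only [Set.mem_preimage, basicEvent, Set.mem_ofPred_eq, Finset.forall_mem_image,
    (rootMap_injective r).mem_finset_image, agree_rootMap]
  rfl

open scoped Classical in
lemma isFreeIsing_map_restrictRoot {G : SimpleGraph V} {R : SimpleGraph W} {r : W} {θ : ℝ}
    {ν' : Measure (V × W → Bool)} (I' : IsFreeIsing (rootedProduct G R r) θ ν') :
    IsFreeIsing G θ (Measure.map (restrictRoot r) ν') := by
  rw [isFreeIsing_iff]
  intro o b F A hF hA
  rw [Measure.map_apply (measurable_restrictRoot r) (measurableSet_basicEvent o b F A),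
    preimage_restrictRoot_basicEvent, I'.apply (o, r) b _ _ ?_ (Finset.image_subset_image hA),
    Finset.card_image_of_injective _ (rootMap_injective r),
    Finset.card_image_of_injective _ (rootMap_injective r)]
  intro e' he'
  obtain ⟨e, he, rfl⟩ := Finset.mem_image.mp (Finset.mem_coe.mp he')
  have h := hF (Finset.mem_coe.mpr he)
  induction e using Sym2.ind with
  | _ u v =>
    rw [Sym2.map_mk, SimpleGraph.mem_edgeSet]
    exact Or.inl ⟨rfl, rfl, h⟩

/-- If the free Ising measure on the rooted product of `G` with a rooted graph is a factor of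
IID, then so is the free Ising measure on `G`. -/
theorem isFIID_of_rootedProduct [Countable W] {G : SimpleGraph V} {R : SimpleGraph W} {r : W}
    (hG : G.Connected) {θ : ℝ} {ν' : Measure (V × W → Bool)} {ν : Measure (V → Bool)}
    (I' : IsFreeIsing (rootedProduct G R r) θ ν') (I : IsFreeIsing G θ ν)
    (F' : IsFIID (rootedProduct G R r) ν') : IsFIID G ν := by
  obtain ⟨Φ', hΦ', eq', rfl⟩ := F'
  obtain ⟨c, hc, hmap⟩ := Measure.exists_measurable_map_eq (iidUniform W)
  have hE := map_extendLabels (V := V) hc hmap
  have hEm := measurable_extendLabels (V := V) hc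
  have hν : ν = Measure.map (restrictRoot r) (Measure.map Φ' (iidUniform (V × W))) :=
    I.eq hG (isFreeIsing_map_restrictRoot I')
  refine ⟨fun U => restrictRoot r (Φ' (extendLabels c U)), ?_, ?_, ?_⟩
  · exact (measurable_restrictRoot r).comp (hΦ'.comp hEm)
  · intro g
    have h := eq' (liftAut G R r g)
    rw [← hE] at h
    have h2 := ae_of_ae_map hEm.aemeasurable h
    filter_upwards [h2] with U hU
    have e1 : extendLabels c (fun v => U (g.symm v)) =
        fun p => extendLabels c U ((liftAut G R r g).symm p) := by
      funext p
      rfl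
    rw [e1, hU]
    rfl
  · rw [hν, Measure.map_map (measurable_restrictRoot r) hΦ', ← hE,
      Measure.map_map ((measurable_restrictRoot r).comp hΦ') hEm]
    rfl

end Vale.Agent.Lib.P161
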