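import Vale.Agent.Lib.P161.Product

namespace Vale.Agent.Lib.P161

open MeasureTheory

variable {V : Type}

instance instIsProbabilityMeasureIidUniform : IsProbabilityMeasure (iidUniform V) := by
  unfold iidUniform
  infer_instance

lemma isFIID_mul {G : SimpleGraph V} {ν₁ ν₂ : Measure (V → Bool)} (F₁ : IsFIID G ν₁)
    (F₂ : IsFIID G ν₂) : IsFIID G (Measure.map mulSpin (ν₁.prod ν₂)) := by
  obtain ⟨Φ₁, hΦ₁, eq₁, rfl⟩ := F₁
  obtain ⟨Φ₂, hΦ₂, eq₂, rfl⟩ := F₂
  obtain ⟨s, hs, hmap⟩ := exists_split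
  have hS := map_splitMap (V := V) hs hmap
  have hsm := measurable_splitMap (V := V) hs
  refine ⟨fun U => mulSpin (Φ₁ (splitMap s U).1, Φ₂ (splitMap s U).2), ?_, ?_, ?_⟩
  · exact measurable_mulSpin.comp ((hΦ₁.comp hsm.fst).prodMk (hΦ₂.comp hsm.snd))
  · intro g
    have m1 : Measure.map (fun U => (splitMap s U).1) (iidUniform V) = iidUniform V := by
      have e : (fun U : V → unitInterval => (splitMap s U).1) = Prod.fst ∘ splitMap s := rfl
      rw [e, ← Measure.map_map measurable_fst hsm, hS, Measure.map_fst_prod]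
      simp
    have m2 : Measure.map (fun U => (splitMap s U).2) (iidUniform V) = iidUniform V := by
      have e : (fun U : V → unitInterval => (splitMap s U).2) = Prod.snd ∘ splitMap s := rfl
      rw [e, ← Measure.map_map measurable_snd hsm, hS, Measure.map_snd_prod]
      simp
    have a1 : ∀ᵐ U ∂(iidUniform V), Φ₁ (fun v => (splitMap s U).1 (g.symm v)) =
        fun v => Φ₁ (splitMap s U).1 (g.symm v) := by
      have h := eq₁ g
      rw [← m1] at h
      exact ae_of_ae_map hsm.fst.aemeasurable h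
    have a2 : ∀ᵐ U ∂(iidUniform V), Φ₂ (fun v => (splitMap s U).2 (g.symm v)) =
        fun v => Φ₂ (splitMap s U).2 (g.symm v) := by
      have h := eq₂ g
      rw [← m2] at h
      exact ae_of_ae_map hsm.snd.aemeasurable h
    filter_upwards [a1, a2] with U h1 h2
    have e1 : (splitMap s (fun v => U (g.symm v))).1 = fun v => (splitMap s U).1 (g.symm v) := rfl
    have e2 : (splitMap s (fun v => U (g.symm v))).2 = fun v => (splitMap s U).2 (g.symm v) := rfl
    rw [e1, e2, h1, h2]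
    rfl
  · have e : (fun U => mulSpin (Φ₁ (splitMap s U).1, Φ₂ (splitMap s U).2)) =
        mulSpin ∘ (Prod.map Φ₁ Φ₂) ∘ splitMap s := rfl
    rw [e, ← Measure.map_map measurable_mulSpin ((hΦ₁.prodMap hΦ₂).comp hsm),
      ← Measure.map_map (hΦ₁.prodMap hΦ₂) hsm, hS, ← Measure.map_prod_map _ _ hΦ₁ hΦ₂]

/-- The set of parameters for which the free Ising measure is a factor of IID is closed under
multiplication. -/
theorem isFIID_of_mul {G : SimpleGraph V} (hG : G.Connected) {θ₁ θ₂ : ℝ}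
    (h₁ : 0 ≤ θ₁ ∧ θ₁ ≤ 1) (h₂ : 0 ≤ θ₂ ∧ θ₂ ≤ 1) {ν₁ ν₂ ν₃ : Measure (V → Bool)}
    (I₁ : IsFreeIsing G θ₁ ν₁) (I₂ : IsFreeIsing G θ₂ ν₂) (I₃ : IsFreeIsing G (θ₁ * θ₂) ν₃)
    (F₁ : IsFIID G ν₁) (F₂ : IsFIID G ν₂) : IsFIID G ν₃ := by
  have h := isFreeIsing_map_mulSpin h₁ h₂ I₁ I₂
  rw [I₃.eq hG h]
  exact isFIID_mul F₁ F₂

end Vale.Agent.Lib.P161
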