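import Vale.Agent.Lib.P161.Basic

namespace Vale.Agent.Lib.P161

open MeasureTheory

variable {V : Type}

lemma exists_split : ∃ s : unitInterval → unitInterval × unitInterval, Measurable s ∧
    Measure.map s volume = (volume : Measure unitInterval).prod volume :=
  Measure.exists_measurable_map_eq _

/-- Split every label into two labels. -/
def splitMap (s : unitInterval → unitInterval × unitInterval) (U : V → unitInterval) :
    (V → unitInterval) × (V → unitInterval) :=
  (fun v => (s (U v)).1, fun v => (s (U v)).2)

lemma measurable_splitMap {s : unitInterval → unitInterval × unitInterval} (hs : Measurable s) :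
    Measurable (splitMap (V := V) s) := by
  unfold splitMap
  fun_prop

lemma univ_mem_squareCylinders :
    (Set.univ : Set (V → unitInterval)) ∈
      squareCylinders (fun _ : V => {s : Set unitInterval | MeasurableSet s}) := by
  refine ⟨∅, fun _ => Set.univ, ?_, ?_⟩
  · simp
  · simp

lemma map_splitMap {s : unitInterval → unitInterval × unitInterval} (hs : Measurable s)
    (hmap : Measure.map s volume = (volume : Measure unitInterval).prod volume) :
    Measure.map (splitMap s) (iidUniform V) = (iidUniform V).prod (iidUniform V) := by
  classical
  symm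
  have hpi : IsPiSystem (squareCylinders (fun _ : V => {s : Set unitInterval | MeasurableSet s})) :=
    isPiSystem_squareCylinders (fun _ => MeasurableSpace.isPiSystem_measurableSet)
      (fun _ => by simp)
  have hspan : (iidUniform V).FiniteSpanningSetsIn
      (squareCylinders (fun _ : V => {s : Set unitInterval | MeasurableSet s})) :=
    ⟨fun _ => Set.univ, fun _ => univ_mem_squareCylinders, fun _ => by
      unfold iidUniform; exact measure_lt_top _ _, Set.iUnion_const _⟩
  refine Measure.prod_eq_generateFrom generateFrom_squareCylinders generateFrom_squareCylinders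
    hpi hpi hspan hspan ?_
  rintro A ⟨sA, tA, htA, rfl⟩ B ⟨sB, tB, htB, rfl⟩
  have htA' : ∀ i, MeasurableSet (tA i) := fun i => htA i (Set.mem_univ i)
  have htB' : ∀ i, MeasurableSet (tB i) := fun i => htB i (Set.mem_univ i)
  set S := sA ∪ sB with hS
  set a : V → Set unitInterval := fun i => if i ∈ sA then tA i else Set.univ with ha
  set b : V → Set unitInterval := fun i => if i ∈ sB then tB i else Set.univ with hb
  have ha' : ∀ i, MeasurableSet (a i) := fun i => by
    simp only [ha]; split_ifs
    · exact htA' i
    · exact MeasurableSet.univ
  have hb' : ∀ i, MeasurableSet (b i) := fun i => by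
    simp only [hb]; split_ifs
    · exact htB' i
    · exact MeasurableSet.univ
  have eA : (sA : Set V).pi tA = (S : Set V).pi a := by
    ext x
    simp only [Set.mem_pi, Finset.mem_coe, hS, Finset.mem_union, ha]
    constructor
    · intro h i _
      split_ifs with hi
      · exact h i hi
      · exact Set.mem_univ _
    · intro h i hi
      have := h i (Or.inl hi)
      simpa [hi] using this
  have eB : (sB : Set V).pi tB = (S : Set V).pi b := by
    ext x
    simp only [Set.mem_pi, Finset.mem_coe, hS, Finset.mem_union, hb]
    constructor
    · intro h i _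
      split_ifs with hi
      · exact h i hi
      · exact Set.mem_univ _
    · intro h i hi
      have := h i (Or.inr hi)
      simpa [hi] using this
  rw [eA, eB]
  have hmeas : MeasurableSet (((S : Set V).pi a) ×ˢ ((S : Set V).pi b)) :=
    (MeasurableSet.pi S.countable_toSet fun i _ => ha' i).prod
      (MeasurableSet.pi S.countable_toSet fun i _ => hb' i)
  rw [Measure.map_apply (measurable_splitMap hs) hmeas]
  have epre : splitMap s ⁻¹' (((S : Set V).pi a) ×ˢ ((S : Set V).pi b)) =
      (S : Set V).pi (fun i => s ⁻¹' (a i ×ˢ b i)) := by
    ext x
    simp only [splitMap, Set.mem_preimage, Set.mem_prod, Set.mem_pi, Finset.mem_coe]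
    constructor
    · intro h i hi
      exact ⟨h.1 i hi, h.2 i hi⟩
    · intro h
      exact ⟨fun i hi => (h i hi).1, fun i hi => (h i hi).2⟩
  rw [epre]
  unfold iidUniform
  rw [Measure.infinitePi_pi _ (fun i _ => hs ((ha' i).prod (hb' i))),
    Measure.infinitePi_pi _ (fun i _ => ha' i), Measure.infinitePi_pi _ (fun i _ => hb' i),
    ← Finset.prod_mul_distrib]
  refine Finset.prod_congr rfl fun i _ => ?_
  rw [← Measure.map_apply hs ((ha' i).prod (hb' i)), hmap, Measure.prod_prod]

end Vale.Agent.Lib.P161
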